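import Vale.Agent.P166.Bdl.B6

namespace Vale.Agent.Results.P166.ParisiFormula

open MeasureTheory Matrix Filter Topology Vale.Agent.P166 Vale.Agent.P157.Par

theorem result
    [∀ N, MeasurableSpace (orthogonalGroup (Fin N) ℝ)]
    [∀ N, BorelSpace (orthogonalGroup (Fin N) ℝ)]
    (ν : (N : ℕ) → Measure (orthogonalGroup (Fin N) ℝ))
    [∀ N, IsProbabilityMeasure (ν N)] [∀ N, (ν N).IsMulLeftInvariant]
    (β : ℝ) (hβ : 0 < β) (μ : Measure ℝ) [IsProbabilityMeasure μ] (hμ : IsCompact μ.support) :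
    (∀ (k : ℕ) (m q : ℕ → ℝ), Exponents k m → Path k q → q k < 1 →
      BddAbove {x : ℝ | ∃ r : ℕ → ℝ, Path k r ∧ x = Jf β μ k m q r}) ∧
    ∃ p : ℝ,
      IsGLB {y : ℝ | ∃ (k : ℕ) (m q : ℕ → ℝ), Exponents k m ∧ Path k q ∧ q 0 = 0 ∧ q k < 1 ∧
        IsLUB {x : ℝ | ∃ r : ℕ → ℝ, Path k r ∧ x = Jf β μ k m q r} y} p ∧
      ∀ Λ : (N : ℕ) → Fin N → ℝ, Admissible Λ μ →
        Tendsto (fun N => ∫ U, (pressure N β (U.1ᵀ * diagonal (Λ N) * U.1) - p) ^ 2 ∂(ν N))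
          atTop (𝓝 0) ∧
        (∀ ε > 0, Tendsto (fun N => (ν N).real
          {U | ε ≤ |pressure N β (U.1ᵀ * diagonal (Λ N) * U.1) - p|}) atTop (𝓝 0)) ∧
        ∀ (Ω : Type) [MeasurableSpace Ω] (P : Measure Ω) [IsProbabilityMeasure P]
          (W : (N : ℕ) → Ω → orthogonalGroup (Fin N) ℝ),
          (∀ N, Measurable (W N)) → (∀ N, P.map (W N) = ν N) →
          ∀ᵐ ω ∂P, Tendsto (fun N => pressure N β ((W N ω).1ᵀ * diagonal (Λ N) * (W N ω).1))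
            atTop (𝓝 p) :=
  ⟨fun _ _ _ hm hq hq1 => F.Jf_bdd β μ hm hq hq1, full_formula ν hβ μ hμ⟩

end Vale.Agent.Results.P166.ParisiFormula
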